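import Vale.Agent.P111.Factor
import Vale.Agent.P111.TypeP
import Vale.Agent.P111.SupFactor
import Vale.Agent.P111.DualFactor

/-! P111: cotype of `X*` gives type `p > 1` (all exponents) as soon as the approximating operators
factor through `K`-convex spaces with sub-exponential factorisation constant. -/

namespace Vale.Agent.Results.P111.FactorGap

open Vale.Agent.P111 Finset

universe u

/-- Any `k` unit-ball vectors are almost fixed by an operator `W ∘ V` through some space `Z` whose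
Rademacher projection on the `k`-cube has norm at most `K`, with `‖W‖ ‖V‖ ≤ 2 ^ D ‖W ∘ V‖` and
`K D ‖W ∘ V‖ = o(k^(1/r))`. -/
def KFactorApprox (X : Type u) [NormedAddCommGroup X] [NormedSpace ℝ X] (r : ℝ) : Prop :=
  ∀ δ : ℝ, 0 < δ → ∀ η : ℝ, 0 < η → ∃ k₀ : ℕ, ∀ k, k₀ ≤ k → ∀ x : Fin k → X,
    (∀ i, ‖x i‖ ≤ 1) →
    ∃ (Z : Type u) (_ : NormedAddCommGroup Z) (_ : NormedSpace ℝ Z)
      (V : X →L[ℝ] Z) (W : Z →L[ℝ] X) (K : ℝ) (D : ℕ),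
      1 ≤ K ∧ 0 < D ∧ RadBound Z k K ∧ ‖W‖ * ‖V‖ ≤ (2 : ℝ) ^ D * ‖W.comp V‖ ∧
      (∀ i, ‖W (V (x i)) - x i‖ ≤ δ) ∧ K * D * ‖W.comp V‖ ≤ η * (k : ℝ) ^ (1 / r)

/-- Any `k` vectors in the unit ball are almost fixed by a finite rank operator `S` whose
norm times `log` of the rank is `o(k^(1/r))`. -/
def LogRankApprox (X : Type u) [NormedAddCommGroup X] [NormedSpace ℝ X] (r : ℝ) : Prop :=
  ∀ δ : ℝ, 0 < δ → ∀ η : ℝ, 0 < η → ∃ k₀ : ℕ, ∀ k, k₀ ≤ k → ∀ x : Fin k → X,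
    (∀ i, ‖x i‖ ≤ 1) → ∃ S : X →L[ℝ] X,
      FiniteDimensional ℝ (LinearMap.range (S : X →ₗ[ℝ] X)) ∧
      (∀ i, ‖S (x i) - x i‖ ≤ δ) ∧
      ‖S‖ * ((Nat.log 2 (Module.finrank ℝ (LinearMap.range (S : X →ₗ[ℝ] X))) : ℝ) + 1)
        ≤ η * (k : ℝ) ^ (1 / r)

/-- The same with `Z` a finite dimensional sup-norm space (so `K` plays no role). -/
def SupFactorApprox (X : Type u) [NormedAddCommGroup X] [NormedSpace ℝ X] (r : ℝ) : Prop :=
  ∀ δ : ℝ, 0 < δ → ∀ η : ℝ, 0 < η → ∃ k₀ : ℕ, ∀ k, k₀ ≤ k → ∀ x : Fin k → X,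
    (∀ i, ‖x i‖ ≤ 1) →
    ∃ (ι : Type u) (_ : Fintype ι) (V : X →L[ℝ] (ι → ℝ)) (W : (ι → ℝ) →L[ℝ] X) (D : ℕ),
      0 < D ∧ ‖W‖ * ‖V‖ ≤ (2 : ℝ) ^ D * ‖W.comp V‖ ∧
      (∀ i, ‖W (V (x i)) - x i‖ ≤ δ) ∧ (D : ℝ) * ‖W.comp V‖ ≤ η * (k : ℝ) ^ (1 / r)

theorem supFactor_kFactor {X : Type u} [NormedAddCommGroup X] [NormedSpace ℝ X] {r Cq : ℝ} {q : ℕ}
    (hq : 1 ≤ q) (hX : PrimalCotype X q Cq) (h : SupFactorApprox X r) : KFactorApprox X r := by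
  intro δ hδ η hη
  set C := max Cq 1
  have hX' : PrimalCotype X q C := fun s y =>
    le_trans (hX s y) (mul_le_mul_of_nonneg_right (le_max_left _ _) (Real.sqrt_nonneg _))
  obtain ⟨E0, hE0⟩ := pow_unbounded_of_one_lt (((q + 1) * C + 4) ^ 2) (one_lt_two (α := ℝ))
  set K : ℝ := 2 * ((2 * q).factorial : ℝ)
  have hK1 : 1 ≤ K := by
    have : (1 : ℝ) ≤ ((2 * q).factorial : ℝ) := by exact_mod_cast (2 * q).factorial_pos
    linarith
  obtain ⟨k₀, hk₀⟩ := h δ hδ (η / (K * (E0 + 1))) (by positivity)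
  refine ⟨k₀, fun k hk x hx => ?_⟩
  obtain ⟨ι, hι, V, W, D, hD, hγ, hS, hb⟩ := hk₀ k hk x hx
  obtain ⟨hf, V', W', hcomp, hγ'⟩ := sup_factor hq (le_max_right _ _) hX' V W
  refine ⟨PiLp ((2 * q : ℕ) : ENNReal) (fun _ : ι => ℝ), inferInstance, inferInstance, V', W', K,
    D + E0, hK1, by omega, radBound_lp q hq ι, ?_, ?_, ?_⟩
  · rw [hcomp, pow_add, mul_comm ((2 : ℝ) ^ D), mul_assoc]
    exact le_trans hγ' (mul_le_mul hE0.le hγ (by positivity) (by positivity))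
  · intro i
    have : W' (V' (x i)) = W (V (x i)) := DFunLike.congr_fun hcomp (x i)
    rw [this]; exact hS i
  · rw [hcomp]
    have h1 : ((D + E0 : ℕ) : ℝ) ≤ D * (E0 + 1) := by
      have hD1 : (1 : ℝ) ≤ D := by exact_mod_cast hD
      push_cast; nlinarith [(Nat.cast_nonneg E0 : (0 : ℝ) ≤ E0)]
    calc K * ((D + E0 : ℕ) : ℝ) * ‖W.comp V‖ ≤ K * (D * (E0 + 1)) * ‖W.comp V‖ :=
          mul_le_mul_of_nonneg_right (mul_le_mul_of_nonneg_left h1 (by linarith)) (norm_nonneg _)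
      _ = K * (E0 + 1) * (D * ‖W.comp V‖) := by ring
      _ ≤ K * (E0 + 1) * (η / (K * (E0 + 1)) * (k : ℝ) ^ (1 / r)) :=
          mul_le_mul_of_nonneg_left hb (by positivity)
      _ = η * (k : ℝ) ^ (1 / r) := by field_simp

/-- The same with `Z` a finite dimensional `ℓ₁` space. -/
def SumFactorApprox (X : Type u) [NormedAddCommGroup X] [NormedSpace ℝ X] (r : ℝ) : Prop :=
  ∀ δ : ℝ, 0 < δ → ∀ η : ℝ, 0 < η → ∃ k₀ : ℕ, ∀ k, k₀ ≤ k → ∀ x : Fin k → X,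
    (∀ i, ‖x i‖ ≤ 1) →
    ∃ (ι : Type u) (_ : Fintype ι) (V : X →L[ℝ] PiLp 1 fun _ : ι => ℝ)
      (W : (PiLp 1 fun _ : ι => ℝ) →L[ℝ] X) (D : ℕ),
      0 < D ∧ ‖W‖ * ‖V‖ ≤ (2 : ℝ) ^ D * ‖W.comp V‖ ∧
      (∀ i, ‖W (V (x i)) - x i‖ ≤ δ) ∧ (D : ℝ) * ‖W.comp V‖ ≤ η * (k : ℝ) ^ (1 / r)

theorem not_ellOne_sum {X : Type u} [NormedAddCommGroup X] [NormedSpace ℝ X] {r Cr : ℝ}
    (hr : 0 < r) (hcot : DualCotype X r Cr) (happ : SumFactorApprox X r) :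
    ¬ HasUniformEllOne X := by
  rintro ⟨C₀, hl1⟩
  set C := max C₀ 1
  have hC : 0 < C := lt_max_of_lt_right one_pos
  have hcot' : DualCotype X r (max Cr 1) := fun s y =>
    le_trans (hcot s y) (mul_le_mul_of_nonneg_right (le_max_left _ _) (Real.sqrt_nonneg _))
  obtain ⟨c, hc0, hgap⟩ := sum_gap hr (le_max_right _ _) hcot'
  obtain ⟨k₀, hk₀⟩ := happ (1 / (2 * C)) (by positivity) (1 / (2 * (c + 1) * C)) (by positivity)
  obtain ⟨x, hx⟩ := hl1 (k₀ + 1)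
  have hx1 : ∀ i, ‖x i‖ ≤ 1 := fun i => by
    have h := (hx (Pi.single i 1)).2
    simpa [Pi.single_apply, apply_ite abs] using h
  have hlow : ∀ a : Fin (k₀ + 1) → ℝ, ∑ i, |a i| ≤ C * ‖∑ i, a i • x i‖ := fun a =>
    le_trans (hx a).1 (mul_le_mul_of_nonneg_right (le_max_left _ _) (norm_nonneg _))
  obtain ⟨ι, hι, V, W, D, hD, hγ, hS, hb⟩ := hk₀ (k₀ + 1) (Nat.le_succ _) x hx1
  have h := hgap C (1 / (2 * C)) hC.le (by field_simp; norm_num) _ x hx1 hlow ι V W D hD hγ hS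
  have hpos : 0 < ((k₀ + 1 : ℕ) : ℝ) ^ (1 / r) :=
    Real.rpow_pos_of_pos (by exact_mod_cast Nat.succ_pos k₀) _
  have h1 : c * C * D * ‖W.comp V‖ ≤ (c + 1) * C * (D * ‖W.comp V‖) := by
    rw [← mul_assoc]
    refine mul_le_mul_of_nonneg_right ?_ (norm_nonneg _)
    exact mul_le_mul_of_nonneg_right (mul_le_mul_of_nonneg_right (by linarith) hC.le)
      (Nat.cast_nonneg _)
  have h2 := mul_le_mul_of_nonneg_left hb (show (0 : ℝ) ≤ (c + 1) * C by positivity)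
  have h3 : (c + 1) * C * (1 / (2 * (c + 1) * C) * ((k₀ + 1 : ℕ) : ℝ) ^ (1 / r))
      = ((k₀ + 1 : ℕ) : ℝ) ^ (1 / r) / 2 := by field_simp
  rw [h3] at h2
  linarith

theorem not_ellOne {X : Type u} [NormedAddCommGroup X] [NormedSpace ℝ X] {r Cr : ℝ}
    (hr : 0 < r) (hcot : DualCotype X r Cr) (happ : KFactorApprox X r) :
    ¬ HasUniformEllOne X := by
  rintro ⟨C₀, hl1⟩
  set C := max C₀ 1
  have hC : 0 < C := lt_max_of_lt_right one_pos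
  set R := max Cr 1
  have hR : 0 < R := lt_max_of_lt_right one_pos
  have hcot' : DualCotype X r R := fun s y =>
    le_trans (hcot s y) (mul_le_mul_of_nonneg_right (le_max_left _ _) (Real.sqrt_nonneg _))
  obtain ⟨k₀, hk₀⟩ := happ (1 / (2 * C)) (by positivity) (1 / (96 * C * R)) (by positivity)
  obtain ⟨x, hx⟩ := hl1 (k₀ + 1)
  have hx1 : ∀ i, ‖x i‖ ≤ 1 := fun i => by
    have h := (hx (Pi.single i 1)).2
    simpa [Pi.single_apply, apply_ite abs] using h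
  have hlow : ∀ a : Fin (k₀ + 1) → ℝ, ∑ i, |a i| ≤ C * ‖∑ i, a i • x i‖ := fun a =>
    le_trans (hx a).1 (mul_le_mul_of_nonneg_right (le_max_left _ _) (norm_nonneg _))
  obtain ⟨Z, _, _, V, W, K, D, hK, hD, hZ, hγ, hS, hb⟩ := hk₀ (k₀ + 1) (Nat.le_succ _) x hx1
  have h := factor_gap (δ := 1 / (2 * C)) hr hR.le hC.le hcot' hx1 hlow hK hZ V W hD hγ hS
    (by field_simp; norm_num)
  have hpos : 0 < ((k₀ + 1 : ℕ) : ℝ) ^ (1 / r) :=
    Real.rpow_pos_of_pos (by exact_mod_cast Nat.succ_pos k₀) _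
  have h2 := mul_le_mul_of_nonneg_left hb (show (0 : ℝ) ≤ 48 * C * R by positivity)
  have h3 : 48 * C * R * (1 / (96 * C * R) * ((k₀ + 1 : ℕ) : ℝ) ^ (1 / r))
      = ((k₀ + 1 : ℕ) : ℝ) ^ (1 / r) / 2 := by field_simp; norm_num
  rw [h3] at h2
  have h4 : 48 * C * R * K * D * ‖W.comp V‖ = 48 * C * R * (K * D * ‖W.comp V‖) := by ring
  rw [h4] at h
  linarith

theorem logRank_kFactor {X : Type u} [NormedAddCommGroup X] [NormedSpace ℝ X] {r : ℝ}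
    (h : LogRankApprox X r) : KFactorApprox X r := by
  intro δ hδ η hη
  obtain ⟨k₀, hk₀⟩ := h δ hδ η hη
  refine ⟨k₀, fun k hk x hx => ?_⟩
  obtain ⟨S, hfin, hS, hb⟩ := hk₀ k hk x hx
  obtain ⟨ι, hι, V, W, hWV, hγ⟩ := rank_factor S
  set N := Module.finrank ℝ (LinearMap.range (S : X →ₗ[ℝ] X))
  refine ⟨EuclideanSpace ℝ ι, inferInstance, inferInstance, V, W, 1, Nat.log 2 N + 1, le_rfl,
    by omega, radBound_euclidean ι, ?_, ?_, ?_⟩
  · rw [hWV]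
    refine le_trans hγ (mul_le_mul_of_nonneg_right ?_ (norm_nonneg S))
    exact_mod_cast (Nat.lt_pow_succ_log_self (b := 2) one_lt_two N).le
  · intro i
    have : W (V (x i)) = S (x i) := by rw [← hWV]; rfl
    rw [this]; exact hS i
  · rw [hWV]; push_cast; rw [one_mul, mul_comm]; exact hb

theorem kConvex_kFactor {X : Type u} [NormedAddCommGroup X] [NormedSpace ℝ X] {r K : ℝ}
    (hr : 0 < r) (hK : 0 ≤ K) (hX : ∀ k, RadBound X k K) : KFactorApprox X r := by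
  intro δ hδ η hη
  set B := max K 1
  have hlim : Filter.Tendsto (fun k : ℕ => η * (k : ℝ) ^ (1 / r)) Filter.atTop Filter.atTop :=
    ((tendsto_rpow_atTop (by positivity)).comp tendsto_natCast_atTop_atTop).const_mul_atTop hη
  obtain ⟨k₀, hk₀⟩ := Filter.tendsto_atTop_atTop.mp hlim B
  refine ⟨k₀, fun k hk x _ => ⟨X, inferInstance, inferInstance, ContinuousLinearMap.id ℝ X,
    ContinuousLinearMap.id ℝ X, B, 1, le_max_right _ _, one_pos, fun f => ?_, ?_, ?_, ?_⟩⟩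
  · refine le_trans (hX k f) (mul_le_mul_of_nonneg_right ?_ (Finset.sum_nonneg fun _ _ => sq_nonneg _))
    exact pow_le_pow_left₀ hK (le_max_left _ _) 2
  · rw [ContinuousLinearMap.id_comp, pow_one]
    nlinarith [norm_nonneg (ContinuousLinearMap.id ℝ X), ContinuousLinearMap.norm_id_le (𝕜 := ℝ) (E := X)]
  · intro i; simp [hδ.le]
  · rw [ContinuousLinearMap.id_comp, Nat.cast_one, mul_one]
    exact le_trans (mul_le_of_le_one_right (le_trans zero_le_one (le_max_right _ _))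
      ContinuousLinearMap.norm_id_le) (hk₀ k hk)

theorem result :
    (∀ (X : Type u) [NormedAddCommGroup X] [NormedSpace ℝ X]
      (Z : Type u) [NormedAddCommGroup Z] [NormedSpace ℝ Z] (r Cr C δ K : ℝ) (k D : ℕ),
      0 < r → 0 ≤ Cr → 0 ≤ C → 1 ≤ K → 0 < D → DualCotype X r Cr → RadBound Z k K →
      2 * C * δ ≤ 1 →
      ∀ x : Fin k → X, (∀ i, ‖x i‖ ≤ 1) →
        (∀ a : Fin k → ℝ, ∑ i, |a i| ≤ C * ‖∑ i, a i • x i‖) →
        ∀ (V : X →L[ℝ] Z) (W : Z →L[ℝ] X), ‖W‖ * ‖V‖ ≤ (2 : ℝ) ^ D * ‖W.comp V‖ →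
          (∀ i, ‖W (V (x i)) - x i‖ ≤ δ) →
          (k : ℝ) ^ (1 / r) ≤ 48 * C * Cr * K * D * ‖W.comp V‖) ∧
    (∀ (X : Type u) [NormedAddCommGroup X] [NormedSpace ℝ X] (r Cr : ℝ),
      0 < r → DualCotype X r Cr → KFactorApprox X r →
        ¬ HasUniformEllOne X ∧ ∃ p : ℝ, 1 < p ∧ p ≤ 2 ∧ HasRadType X p) ∧
    (∀ (X : Type u) [NormedAddCommGroup X] [NormedSpace ℝ X] (r : ℝ),
      LogRankApprox X r → KFactorApprox X r) ∧
    (∀ (X : Type u) [NormedAddCommGroup X] [NormedSpace ℝ X] (r Cr : ℝ),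
      0 < r → DualCotype X r Cr → SumFactorApprox X r →
        ¬ HasUniformEllOne X ∧ ∃ p : ℝ, 1 < p ∧ p ≤ 2 ∧ HasRadType X p) ∧
    (∀ (X : Type u) [NormedAddCommGroup X] [NormedSpace ℝ X] (r Cq : ℝ) (q : ℕ),
      1 ≤ q → PrimalCotype X q Cq → SupFactorApprox X r → KFactorApprox X r) ∧
    (∀ (X : Type u) [NormedAddCommGroup X] [NormedSpace ℝ X] (r K : ℝ),
      0 < r → 0 ≤ K → (∀ k, RadBound X k K) → KFactorApprox X r) ∧
    (∀ (X : Type u) [NormedAddCommGroup X] [NormedSpace ℝ X] (r Cr C δ : ℝ),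
      0 < r → 0 ≤ Cr → 0 ≤ C → DualCotype X r Cr → 2 * C * δ ≤ 1 →
      ∀ (k : ℕ) (x : Fin k → X), (∀ i, ‖x i‖ ≤ 1) →
        (∀ a : Fin k → ℝ, ∑ i, |a i| ≤ C * ‖∑ i, a i • x i‖) →
        ∀ S : X →L[ℝ] X, FiniteDimensional ℝ (LinearMap.range (S : X →ₗ[ℝ] X)) →
          (∀ i, ‖S (x i) - x i‖ ≤ δ) →
          (k : ℝ) ^ (1 / r) ≤ 16 * C * Cr * ‖S‖ *
            ((Nat.log 2 (Module.finrank ℝ (LinearMap.range (S : X →ₗ[ℝ] X))) : ℝ) + 1)) ∧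
    (∀ (E : Type u) [NormedAddCommGroup E] [NormedSpace ℝ E]
      (Z : Type u) [NormedAddCommGroup Z] [NormedSpace ℝ Z] (k D : ℕ) (K : ℝ),
      1 ≤ K → 0 < D → RadBound Z k K → ∀ e : E ≃L[ℝ] Z,
        ‖(e : E →L[ℝ] Z)‖ * ‖(e.symm : Z →L[ℝ] E)‖ ≤ (2 : ℝ) ^ D →
        RadBound E k (24 * K * D)) := by
  refine ⟨?_, ?_, fun X _ _ r => logRank_kFactor,
    fun X _ _ r Cr hr hcot happ => ⟨not_ellOne_sum hr hcot happ,
      hasRadType_of_not_ellOne (not_ellOne_sum hr hcot happ)⟩,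
    fun X _ _ r Cq q => supFactor_kFactor, fun X _ _ r K => kConvex_kFactor, ?_, ?_⟩
  · intro X _ _ Z _ _ r Cr C δ K k D hr hCr hC hK hD hcot hZ hδ x hx1 hx V W hγ hS
    exact factor_gap hr hCr hC hcot hx1 hx hK hZ V W hD hγ hS hδ
  · intro X _ _ r Cr hr hcot happ
    have h := not_ellOne hr hcot happ
    exact ⟨h, hasRadType_of_not_ellOne h⟩
  · intro X _ _ r Cr C δ hr hCr hC hcot hδ k x hx1 hx S hfin hS
    exact rank_bound hr hCr hC hcot x hx1 hx S hS hδ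
  · intro E _ _ Z _ _ k D K hK hD hZ e hd
    exact radBound_of_iso hK hZ e hD hd

end Vale.Agent.Results.P111.FactorGap
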